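import Vale.Agent.P235.H606.ADefs
import Mathlib.Analysis.Complex.ExponentialBounds

/-!
(ALL): the packing theorem without an excluded minor, from (PACK), (BADK), (SPLK) (helper648).
-/

set_option autoImplicit false

namespace Vale.Agent.P235.H648

open SimpleGraph Vale.Agent.P235 Vale.Agent.P235.H134 Vale.Agent.P235.H606

/-- **(ALL)** -/
theorem all_of (hPack : PackStmt) (hBad : BadKStmt) (hSpl : SplKStmt) : AllStmt := by
  intro C hC
  obtain ⟨K, hK1, hPack⟩ := hPack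
  obtain ⟨n, hn, hBad⟩ := hBad C
  refine ⟨K * ((n : ℝ) + 2) ^ 6 * (C / Real.log 2 + 1), ?_⟩
  intro m V _ G hc hpack
  have hnok : Kr.NoK ((m + 1) * n) G := by
    intro hmin
    obtain ⟨A, hA, hdis⟩ := hSpl V G m n hn hmin
    refine hpack ⟨A, fun i => ⟨(hA i).1, hBad _ _ (hA i).1 (hA i).2⟩, hdis⟩
  obtain ⟨h1, h2⟩ := hPack ((m + 1) * n) m C V G hC hc hnok hpack
  -- the numbers
  have hm0 : (0 : ℝ) ≤ m := Nat.cast_nonneg m
  have hn0 : (0 : ℝ) ≤ n := Nat.cast_nonneg n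
  have hl2 : 0 < Real.log 2 := Real.log_pos (by norm_num)
  have hl2' : Real.log 2 ≤ 1 := by
    have := Real.log_le_sub_one_of_pos (show (0 : ℝ) < 2 by norm_num)
    linarith
  set L : ℝ := Real.log ((m : ℝ) + 2) with hL
  have hL2 : Real.log 2 ≤ L := Real.log_le_log (by norm_num) (by linarith)
  have hL0 : 0 ≤ L := hl2.le.trans hL2
  have hsL : Real.log 2 ≤ √L := by
    refine Real.le_sqrt_of_sq_le ?_
    nlinarith
  have hsL0 : 0 ≤ √L := Real.sqrt_nonneg _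
  have hcast : (((m + 1) * n : ℕ) : ℝ) + 2 ≤ ((m : ℝ) + 1) * ((n : ℝ) + 2) := by
    push_cast
    nlinarith
  have hcast0 : (0 : ℝ) ≤ (((m + 1) * n : ℕ) : ℝ) + 2 := by positivity
  have hp3 : ((((m + 1) * n : ℕ) : ℝ) + 2) ^ 3 ≤ ((m : ℝ) + 1) ^ 3 * ((n : ℝ) + 2) ^ 3 := by
    rw [← mul_pow]
    exact pow_le_pow_left₀ hcast0 hcast 3
  have hp6 : ((((m + 1) * n : ℕ) : ℝ) + 2) ^ 6 ≤ ((m : ℝ) + 1) ^ 6 * ((n : ℝ) + 2) ^ 6 := by
    rw [← mul_pow]
    exact pow_le_pow_left₀ hcast0 hcast 6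
  have h36 : ((n : ℝ) + 2) ^ 3 ≤ ((n : ℝ) + 2) ^ 6 :=
    pow_le_pow_right₀ (by linarith) (by norm_num)
  have hCL : ∀ x : ℝ, Real.log 2 ≤ x → C + x ≤ (C / Real.log 2 + 1) * x := by
    intro x hx
    have : C ≤ C / Real.log 2 * x := by
      rw [div_mul_eq_mul_div, le_div_iff₀ hl2]
      exact mul_le_mul_of_nonneg_left hx (by linarith)
    linarith
  have hD0 : 0 ≤ C / Real.log 2 + 1 := by positivity
  constructor
  · refine h1.mono ?_
    calc K * ((((m + 1) * n : ℕ) : ℝ) + 2) ^ 3 * (C + L)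
        ≤ K * (((m : ℝ) + 1) ^ 3 * ((n : ℝ) + 2) ^ 6) * ((C / Real.log 2 + 1) * L) := by
          have e1 : ((((m + 1) * n : ℕ) : ℝ) + 2) ^ 3 ≤ ((m : ℝ) + 1) ^ 3 * ((n : ℝ) + 2) ^ 6 :=
            hp3.trans (mul_le_mul_of_nonneg_left h36 (by positivity))
          exact mul_le_mul (mul_le_mul_of_nonneg_left e1 (by linarith)) (hCL L hL2)
            (by linarith) (by positivity)
      _ = K * ((n : ℝ) + 2) ^ 6 * (C / Real.log 2 + 1) * ((m : ℝ) + 1) ^ 3 * L := by ring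
  · refine h2.mono ?_
    calc K * ((((m + 1) * n : ℕ) : ℝ) + 2) ^ 6 * (C + √L)
        ≤ K * (((m : ℝ) + 1) ^ 6 * ((n : ℝ) + 2) ^ 6) * ((C / Real.log 2 + 1) * √L) :=
          mul_le_mul (mul_le_mul_of_nonneg_left hp6 (by linarith)) (hCL _ hsL)
            (by linarith) (by positivity)
      _ = K * ((n : ℝ) + 2) ^ 6 * (C / Real.log 2 + 1) * ((m : ℝ) + 1) ^ 6 * √L := by ring

end Vale.Agent.P235.H648
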