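import Vale.Agent.P235.H606.PDefs
import Vale.Agent.P235.H786.Ball
import Mathlib.Analysis.Complex.ExponentialBounds

/-!
(COMP): for excluded minors it is enough to treat the components, from (PACK) (helper648).
-/

set_option autoImplicit false

namespace Vale.Agent.P235.H648

open SimpleGraph Vale.Agent.P235 Vale.Agent.P235.H134 Vale.Agent.P235.H606

/-- the components of `H` in disjoint sets give `H` -/
theorem minor_comps {V W : Type} {G : SimpleGraph V} {H : SimpleGraph W}
    (A : H.ConnectedComponent → Set V) (hdis : ∀ c d, c ≠ d → Disjoint (A c) (A d))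
    (h : ∀ c, IsMinor (H.induce c.supp) (G.induce (A c))) : IsMinor H G := by
  choose μ a1 a2 a3 using h
  have hmem : ∀ w : W, w ∈ (H.connectedComponentMk w).supp := fun w => rfl
  refine ⟨fun w => Subtype.val '' μ (H.connectedComponentMk w) ⟨w, hmem w⟩,
    fun w => H786.conn_coe (a1 _ _), ?_, ?_⟩
  · intro w w' hww
    rw [Set.disjoint_left]
    rintro _ ⟨x, hx, rfl⟩ ⟨y, hy, e⟩
    by_cases hc : H.connectedComponentMk w = H.connectedComponentMk w'
    · have key : ∀ (c : H.ConnectedComponent) (hw : w ∈ c.supp) (hw' : w' ∈ c.supp)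
          (x y : A c), x ∈ μ c ⟨w, hw⟩ → y ∈ μ c ⟨w', hw'⟩ → y.1 = x.1 → False := by
        intro c hw hw' x y hx hy e
        obtain rfl := Subtype.ext e
        exact Set.disjoint_left.1 (a2 c ⟨w, hw⟩ ⟨w', hw'⟩ fun h => hww (congrArg Subtype.val h))
          hx hy
      have : ∀ (c d : H.ConnectedComponent) (hcd : c = d) (hw : w ∈ c.supp) (hw' : w' ∈ d.supp)
          (x : A c) (y : A d), x ∈ μ c ⟨w, hw⟩ → y ∈ μ d ⟨w', hw'⟩ → y.1 = x.1 → False := by
        rintro c _ rfl
        exact key c
      exact this _ _ hc _ _ x y hx hy e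
    · exact Set.disjoint_left.1 (hdis _ _ hc) x.2 (e ▸ y.2)
  · intro w w' hww
    have hc : H.connectedComponentMk w = H.connectedComponentMk w' :=
      ConnectedComponent.sound hww.reachable
    have key : ∀ (c d : H.ConnectedComponent) (hcd : c = d) (hw : w ∈ c.supp)
        (hw' : w' ∈ d.supp), ∃ x ∈ Subtype.val '' μ c ⟨w, hw⟩,
          ∃ y ∈ Subtype.val '' μ d ⟨w', hw'⟩, G.Adj x y := by
      rintro c _ rfl hw hw'
      obtain ⟨x, hx, y, hy, h⟩ := a3 c ⟨w, hw⟩ ⟨w', hw'⟩ hww
      exact ⟨x.1, ⟨x, hx, rfl⟩, y.1, ⟨y, hy, rfl⟩, h⟩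
    exact key _ _ hc _ _

/-- **(COMP)** -/
theorem comp_of (hPack : PackStmt) : CompStmt := by
  obtain ⟨K, hK1, hPack⟩ := hPack
  refine ⟨K, hK1, ?_⟩
  intro W _ H C hC hfree V _ G hc hmin
  classical
  have hfin : Finite H.ConnectedComponent := inferInstance
  -- there is a component
  have hne : Nonempty W := by
    by_contra hW
    rw [not_nonempty_iff] at hW
    exact hmin ⟨fun w => (hW.false w).elim, fun w => (hW.false w).elim,
      fun w => (hW.false w).elim, fun w => (hW.false w).elim⟩
  have hneC : Nonempty H.ConnectedComponent := hne.map H.connectedComponentMk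
  have hpos : 0 < Nat.card H.ConnectedComponent := Nat.card_pos
  obtain ⟨m, hm⟩ : ∃ m, Nat.card H.ConnectedComponent = m + 1 :=
    ⟨Nat.card H.ConnectedComponent - 1, by omega⟩
  have hle : Nat.card H.ConnectedComponent ≤ Nat.card W :=
    Nat.card_le_card_of_surjective H.connectedComponentMk
      (fun c => by obtain ⟨w, hw⟩ := c.exists_rep; exact ⟨w, hw⟩)
  have hpk : ¬ Packing G C m := by
    rintro ⟨A, hA, hdis⟩
    have e : H.ConnectedComponent ≃ Fin (m + 1) := Finite.equivFinOfCardEq hm
    refine hmin (minor_comps (fun c => A (e c)) (fun c d hcd => hdis _ _ fun h => hcd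
      (e.injective h)) fun c => ?_)
    by_contra hno
    exact (hA (e c)).2 (hfree c _ _ (hA (e c)).1 hno)
  have h1 := (hPack (Nat.card W) m C V G hC hc (H786.noKStmt V W G H hmin) hpk).1
  refine h1.mono ?_
  have hlog : Real.log ((m : ℝ) + 2) ≤ Real.log ((Nat.card W : ℝ) + 2) := by
    refine Real.log_le_log (by positivity) ?_
    have : (m : ℝ) ≤ (Nat.card W : ℝ) := by
      have : m ≤ Nat.card W := by omega
      exact_mod_cast this
    linarith
  exact mul_le_mul_of_nonneg_left (by linarith) (by positivity)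

end Vale.Agent.P235.H648
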