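import Vale.Agent.P235.H606.PDefs
import Vale.Agent.P235.H606.Loc
import Vale.Agent.P235.H427.Vit
import Mathlib.Analysis.Complex.ExponentialBounds

/-!
(PACK): a graph without a `K_r` minor and with large `c₁` contains many disjoint connected sets with
large `c₁` (helper648).
-/

set_option autoImplicit false

namespace Vale.Agent.P235.H648

open SimpleGraph MeasureTheory Vale.Agent.P235 Vale.Agent.P235.H134 Vale.Agent.P235.H606

theorem emb_mono {X : Type} {d : X → X → ℝ} {C C' : ℝ} (hd : ∀ x y, 0 ≤ d x y) (h : C ≤ C')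
    (hE : EmbedsL1 d C) : EmbedsL1 d C' := by
  obtain ⟨Ω, mΩ, μ, f, hf⟩ := hE
  exact ⟨Ω, mΩ, μ, f, fun x y => ⟨(hf x y).1, (hf x y).2.trans
    (mul_le_mul_of_nonneg_right h (hd x y))⟩⟩

/-- one point -/
theorem dist_single {V : Type} (G : SimpleGraph V) (v : V) (C : ℝ) :
    DistortionLE (G.induce {v}) C := by
  intro ℓ hℓ
  refine ⟨Unit, inferInstance, 0, fun _ => 0, fun x y => ?_⟩
  have hxy : x = y := Subtype.ext (x.2.trans y.2.symm)
  subst hxy
  have h1 : pathDist (G.induce {v}) ℓ x x ≤ 0 := by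
    have := pathDist_le hℓ (SimpleGraph.Walk.nil : (G.induce {v}).Walk x x)
    simpa using this
  have h2 : pathDist (G.induce {v}) ℓ x x = 0 := le_antisymm h1 (pathDist_nonneg hℓ x x)
  rw [h2]
  simp

theorem log_three_gt : (1 : ℝ) < Real.log 3 := by
  rw [Real.lt_log_iff_exp_lt (by norm_num)]
  exact Real.exp_one_lt_three

/-- **(PACK)** -/
theorem pack (hV : VarStmt) (hP : PtsStmt) : PackStmt := by
  obtain ⟨K, hK1, hP⟩ := hP
  refine ⟨3 * 10 ^ 9 * K, by nlinarith, ?_⟩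
  intro r m C V _ G hC hc hr hpack
  classical
  -- the numbers
  set L : ℝ := Real.log ((m : ℝ) + 2) with hL
  set L' : ℝ := Real.log (((m + 1 : ℕ) : ℝ) + 2) with hL'
  have hm0 : (0 : ℝ) ≤ m := Nat.cast_nonneg m
  have hL0 : 0 ≤ L := Real.log_nonneg (by linarith)
  have hL'1 : 1 ≤ L' := by
    refine log_three_gt.le.trans (Real.log_le_log (by norm_num) ?_)
    push_cast
    linarith
  have hLL : L' ≤ 2 * L := by
    have h1 : 2 * L = Real.log (((m : ℝ) + 2) ^ 2) := by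
      rw [Real.log_pow]
      norm_num
      rfl
    rw [h1]
    refine Real.log_le_log (by push_cast; linarith) ?_
    push_cast
    nlinarith
  have hs1 : 1 ≤ √L' := by
    rw [← Real.sqrt_one]
    exact Real.sqrt_le_sqrt hL'1
  have hsL : √L' ≤ 2 * √L := by
    have h1 : √L' ≤ √(4 * L) := Real.sqrt_le_sqrt (by linarith)
    have h2 : √(4 * L) = 2 * √L := by
      rw [Real.sqrt_mul (by norm_num)]
      congr 1
      rw [show (4 : ℝ) = 2 ^ 2 by norm_num]
      exact Real.sqrt_sq (by norm_num)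
    rwa [h2] at h1
  have hs0 : 0 ≤ √L := Real.sqrt_nonneg _
  have hr3 : 1 ≤ ((r : ℝ) + 2) ^ 3 := one_le_pow₀ (by have : (0 : ℝ) ≤ r := Nat.cast_nonneg r; linarith)
  -- the main step
  have key : ∀ ℓ : Sym2 V → ℝ, (∀ e ∈ G.edgeSet, 0 < ℓ e) → ∃ X : Set V, X.Nonempty ∧
      X.ncard ≤ m + 1 ∧ ∀ (v : V) (ρ : ℝ), 0 ≤ ρ → (∀ x ∈ X, ρ < 1 / 3 * pathDist G ℓ v x) →
        DistortionLE (G.induce (ball G ℓ v ρ)) C := by
    intro ℓ hℓ
    obtain ⟨O, R, hO, hdis, hcov⟩ := H427.vit V G ℓ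
      (fun A => (G.induce A).Connected ∧ ¬ DistortionLE (G.induce A) C) hc hℓ
      (fun v h => h.2 (dist_single G v C))
    have hcard : O.ncard ≤ m := by
      by_contra hlt
      push Not at hlt
      obtain ⟨S, hSO, hS⟩ := Set.exists_subset_card_eq (s := O) (n := m + 1) hlt
      have hfin : S.Finite := Set.toFinite S
      have hcS : Nat.card S = m + 1 := by rw [← hS]; exact Nat.card_coe_set_eq S
      have : Finite S := hfin
      have e : Fin (m + 1) ≃ S := (Finite.equivFinOfCardEq hcS).symm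
      apply hpack
      refine ⟨fun i => ball G ℓ (e i) (R (e i)), fun i => (hO _ (hSO (e i).2)).2, ?_⟩
      intro i j hij
      exact hdis (hSO (e i).2) (hSO (e j).2) fun h => hij (e.injective (Subtype.ext h))
    obtain ⟨x₀⟩ := hc.nonempty
    refine ⟨insert x₀ O, Set.insert_nonempty _ _, (Set.ncard_insert_le _ _).trans (by omega), ?_⟩
    intro v ρ hρ h
    have h1 := hcov v ρ hρ fun o ho => by
      have := h o (Set.mem_insert_of_mem _ ho)
      linarith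
    by_contra hbad
    exact h1 ⟨(indStmt V G ℓ v ρ hc hℓ hρ).1, hbad⟩
  have fin : ∀ B : ℝ, 1 ≤ B → (∀ ℓ : Sym2 V → ℝ, (∀ e ∈ G.edgeSet, 0 < ℓ e) → ∀ X : Set V,
      X.ncard ≤ m + 1 → EmbedsL1 (fun x y : X => pathDist G ℓ x y) B) →
      DistortionLE G (10 ^ 9 * ((r : ℝ) + 2) ^ 3 * (C / (1 / 3) + B)) := by
    intro B hB h ℓ hℓ
    obtain ⟨X, hX, hXm, hball⟩ := key ℓ hℓ
    exact hV V G ℓ r X B C (1 / 3) hc hr hℓ hX hB hC (by norm_num) (by norm_num) (h ℓ hℓ X hXm)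
      hball
  constructor
  · have h1 := fin (K * L') (by nlinarith) fun ℓ hℓ X hX =>
      (hP V G ℓ r hc hr hℓ X (m + 1) hX).1
    refine h1.mono ?_
    have h2 : C / (1 / 3) + K * L' ≤ 3 * K * (C + L) := by
      have : K * L' ≤ K * (2 * L) := mul_le_mul_of_nonneg_left hLL (by linarith)
      have h3 : C / (1 / 3) = 3 * C := by ring
      rw [h3]
      nlinarith [mul_nonneg (by linarith : (0 : ℝ) ≤ K - 1) (by linarith : (0 : ℝ) ≤ C),
        mul_nonneg (by linarith : (0 : ℝ) ≤ K) hL0]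
    calc 10 ^ 9 * ((r : ℝ) + 2) ^ 3 * (C / (1 / 3) + K * L')
        ≤ 10 ^ 9 * ((r : ℝ) + 2) ^ 3 * (3 * K * (C + L)) :=
          mul_le_mul_of_nonneg_left h2 (by positivity)
      _ = 3 * 10 ^ 9 * K * ((r : ℝ) + 2) ^ 3 * (C + L) := by ring
  · have hB : 1 ≤ K * ((r : ℝ) + 2) ^ 3 * √L' := by
      have h1 : 1 ≤ K * ((r : ℝ) + 2) ^ 3 := one_le_mul_of_one_le_of_one_le hK1 hr3
      exact one_le_mul_of_one_le_of_one_le h1 hs1
    have h1 := fin (K * ((r : ℝ) + 2) ^ 3 * √L') hB fun ℓ hℓ X hX =>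
      (hP V G ℓ r hc hr hℓ X (m + 1) hX).2
    refine h1.mono ?_
    have hKr : 0 ≤ K * ((r : ℝ) + 2) ^ 3 := by positivity
    have h2 : C / (1 / 3) + K * ((r : ℝ) + 2) ^ 3 * √L' ≤
        3 * K * ((r : ℝ) + 2) ^ 3 * (C + √L) := by
      have h4 : K * ((r : ℝ) + 2) ^ 3 * √L' ≤ K * ((r : ℝ) + 2) ^ 3 * (2 * √L) :=
        mul_le_mul_of_nonneg_left hsL hKr
      have h3 : C / (1 / 3) = 3 * C := by ring
      have h5 : C ≤ K * ((r : ℝ) + 2) ^ 3 * C :=
        le_mul_of_one_le_left (by linarith) (one_le_mul_of_one_le_of_one_le hK1 hr3)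
      have h6 : 0 ≤ K * ((r : ℝ) + 2) ^ 3 * √L := mul_nonneg hKr hs0
      rw [h3]
      nlinarith
    calc 10 ^ 9 * ((r : ℝ) + 2) ^ 3 * (C / (1 / 3) + K * ((r : ℝ) + 2) ^ 3 * √L')
        ≤ 10 ^ 9 * ((r : ℝ) + 2) ^ 3 * (3 * K * ((r : ℝ) + 2) ^ 3 * (C + √L)) :=
          mul_le_mul_of_nonneg_left h2 (by positivity)
      _ = 3 * 10 ^ 9 * K * ((r : ℝ) + 2) ^ 6 * (C + √L) := by ring

end Vale.Agent.P235.H648
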