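import Vale.Agent.P235.H830.QDefs

/-!
# `[NCV]` and `[ABS]` (helper648)

A connected set has a vertex, different from a given one, whose deletion does not disconnect it; a
model of `K_{3,3}` can be enlarged until the remaining vertices are joined to one branch set only.
-/

namespace Vale.Agent.P235.H648

open SimpleGraph Vale.Agent.P235.H134 Vale.Agent.P235.H56 Vale.Agent.P235.H141
open Vale.Agent.P235.H830

section sets
variable {V : Type} {G : SimpleGraph V}

theorem conn_single (v : V) : (G.induce ({v} : Set V)).Connected := by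
  have : Nonempty ({v} : Set V) := ⟨⟨v, rfl⟩⟩
  refine ⟨fun a b => ?_⟩
  have : a = b := Subtype.ext ((show a.1 = v from a.2).trans (show b.1 = v from b.2).symm)
  rw [this]

theorem conn_ins {S : Set V} {x v : V} (hS : (G.induce S).Connected) (hx : x ∈ S)
    (h : G.Adj x v) : (G.induce (insert v S)).Connected := by
  rw [← Set.union_singleton]
  exact H578.conn_union hS (conn_single v) ⟨x, hx, v, rfl, h⟩

theorem cross {W S : Set V} (hW : (G.induce W).Connected) {a b : V} (ha : a ∈ S) (haW : a ∈ W)
    (hb : b ∈ W) (hb' : b ∉ S) : ∃ x ∈ S, ∃ y ∈ W, y ∉ S ∧ G.Adj x y := by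
  obtain ⟨w⟩ := hW.preconnected ⟨a, haW⟩ ⟨b, hb⟩
  have key : ∀ u v : W, (G.induce W).Walk u v → u.1 ∈ S → v.1 ∉ S →
      ∃ x ∈ S, ∃ y ∈ W, y ∉ S ∧ G.Adj x y := by
    intro u v w
    induction w with
    | nil => intro h1 h2; exact absurd h1 h2
    | @cons u c v h p ih =>
      intro h1 h2
      by_cases hc : c.1 ∈ S
      · exact ih hc h2
      · exact ⟨u.1, h1, c.1, c.2, hc, h⟩
  exact key _ _ w ha hb'

end sets

/-- **[NCV]** -/
theorem ncv : NCVStmt := by
  intro V _ G W z hW hz hne
  -- a maximal connected proper subset which contains `z`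
  have hfin : ({S : Set V | z ∈ S ∧ S ⊆ W ∧ S ≠ W ∧ (G.induce S).Connected}).Finite :=
    Set.toFinite _
  have hne' : ({S : Set V | z ∈ S ∧ S ⊆ W ∧ S ≠ W ∧ (G.induce S).Connected}).Nonempty :=
    ⟨{z}, rfl, Set.singleton_subset_iff.2 hz, fun h => hne h.symm, conn_single z⟩
  obtain ⟨S, hS, hmax⟩ := hfin.exists_maximal hne'
  obtain ⟨hzS, hSW, hSne, hSc⟩ := hS
  obtain ⟨b, hb, hb'⟩ : ∃ b ∈ W, b ∉ S := by
    by_contra hcon
    push Not at hcon
    exact hSne (Set.Subset.antisymm hSW hcon)
  obtain ⟨x, hx, y, hy, hy', hxy⟩ := cross hW hzS hz hb hb'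
  have hins : insert y S = W := by
    by_contra hcon
    have := hmax (y := insert y S) ⟨Or.inr hzS, Set.insert_subset hy hSW, hcon, conn_ins hSc hx hxy⟩
      (Set.subset_insert y S)
    exact hy' (this (Set.mem_insert y S))
  refine ⟨y, hy, fun h => hy' (h ▸ hzS), ?_⟩
  have hWS : W \ {y} = S := by
    rw [← hins]
    ext v
    constructor
    · rintro ⟨h1, h2⟩
      exact h1.resolve_left h2
    · intro h
      exact ⟨Or.inr h, fun h2 => hy' ((show v = y from h2) ▸ h)⟩
  rw [hWS]
  exact hSc

/-- **[ABS]** -/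
theorem absorb : AbsStmt := by
  intro V _ G μ a hμ
  classical
  have hfin : ({ν : Fin 3 ⊕ Fin 3 → Set V | Mod G ν ∧ ν a = μ a ∧ ∀ b, μ b ⊆ ν b}).Finite :=
    Set.toFinite _
  have hne' : ({ν : Fin 3 ⊕ Fin 3 → Set V | Mod G ν ∧ ν a = μ a ∧ ∀ b, μ b ⊆ ν b}).Nonempty :=
    ⟨μ, hμ, rfl, fun b => subset_rfl⟩
  obtain ⟨ν, hν, hmax⟩ := hfin.exists_maximal hne'
  obtain ⟨hM, ha, hsub⟩ := hν
  refine ⟨ν, hM, ha, hsub, ?_⟩
  intro v hv b hb x hx hxv
  -- a larger model
  have hle : ν ≤ Function.update ν b (insert v (ν b)) := by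
    intro c
    by_cases hc : c = b
    · subst hc
      rw [Function.update_self]
      exact Set.subset_insert _ _
    · rw [Function.update_of_ne hc]
  have hMod : Mod G (Function.update ν b (insert v (ν b))) := by
    refine ⟨?_, ?_, ?_⟩
    · intro c
      by_cases hc : c = b
      · subst hc
        rw [Function.update_self]
        exact conn_ins (hM.conn c) hx hxv
      · rw [Function.update_of_ne hc]
        exact hM.conn c
    · intro c d hcd
      by_cases hc : c = b
      · subst hc
        rw [Function.update_self, Function.update_of_ne (Ne.symm hcd)]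
        rw [Set.disjoint_insert_left]
        exact ⟨hv d, hM.disj _ _ hcd⟩
      · rw [Function.update_of_ne hc]
        by_cases hd : d = b
        · subst hd
          rw [Function.update_self, Set.disjoint_insert_right]
          exact ⟨hv c, hM.disj _ _ hcd⟩
        · rw [Function.update_of_ne hd]
          exact hM.disj _ _ hcd
    · intro c d hcd
      obtain ⟨p, hp, q, hq, hpq⟩ := hM.adj c d hcd
      exact ⟨p, hle c hp, q, hle d hq, hpq⟩
  have h1 := hmax (y := Function.update ν b (insert v (ν b)))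
    ⟨hMod, by rw [Function.update_of_ne (Ne.symm hb)]; exact ha,
      fun c => (hsub c).trans (hle c)⟩ hle
  have h2 := h1 b
  rw [Function.update_self] at h2
  exact hv b (h2 (Set.mem_insert v (ν b)))

end Vale.Agent.P235.H648
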