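import Vale.Agent.P235.H830.QDefs

/-!
# `[PAIR]` (helper648)

Seven sets as in `Seven`, the set `F 0` touching two of `F 2, …, F 6`: a model of `K_{3,3}` with the
branch set `F 0`. The model is given by an injection `e` of the six branch sets into the seven sets;
the last set `w` is added to the branch set `m`.
-/

namespace Vale.Agent.P235.H648

open SimpleGraph Vale.Agent.P235.H134 Vale.Agent.P235.H56 Vale.Agent.P235.H141
open Vale.Agent.P235.H830

theorem Touch.symm' {V : Type} {G : SimpleGraph V} {S T : Set V} (h : Touch G S T) :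
    Touch G T S := by
  obtain ⟨x, hx, y, hy, h⟩ := h
  exact ⟨y, hy, x, hx, h.symm⟩

/-- the pair is in the list, in one of the two orders -/
def Rel (L : List (Fin 7 × Fin 7)) (i j : Fin 7) : Prop := (i, j) ∈ L ∨ (j, i) ∈ L

instance (L : List (Fin 7 × Fin 7)) (i j : Fin 7) : Decidable (Rel L i j) := by
  unfold Rel; infer_instance

/-- the combinatorial condition -/
def Cond (L : List (Fin 7 × Fin 7)) (e : Fin 3 ⊕ Fin 3 → Fin 7) (w : Fin 7)
    (m : Fin 3 ⊕ Fin 3) : Prop :=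
  (∀ c d, e c = e d → c = d) ∧ (∀ c, e c ≠ w) ∧ Rel L (e m) w ∧
    (∀ c d : Fin 3, Rel L (e (Sum.inl c)) (e (Sum.inr d)) ∨
      (m = Sum.inl c ∧ Rel L w (e (Sum.inr d))) ∨ (m = Sum.inr d ∧ Rel L (e (Sum.inl c)) w)) ∧
    e (Sum.inl 0) = 0 ∧ m ≠ Sum.inl 0 ∧ ∃ c c', c ≠ c' ∧ c ≠ Sum.inl 0 ∧ c' ≠ Sum.inl 0 ∧
      4 ≤ e c ∧ 4 ≤ e c'

instance (L : List (Fin 7 × Fin 7)) (e : Fin 3 ⊕ Fin 3 → Fin 7) (w : Fin 7)
    (m : Fin 3 ⊕ Fin 3) : Decidable (Cond L e w m) := by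
  unfold Cond; infer_instance

theorem build {V : Type} {G : SimpleGraph V} {F : Fin 7 → Set V} (hS : Seven G F)
    (L : List (Fin 7 × Fin 7)) (hL : ∀ x ∈ L, Touch G (F x.1) (F x.2))
    (e : Fin 3 ⊕ Fin 3 → Fin 7) (w : Fin 7) (m : Fin 3 ⊕ Fin 3) (h : Cond L e w m) :
    NewM G F := by
  classical
  obtain ⟨hinj, hw, hm, hadj, he0, hm0, c, c', hcc, hc, hc', h4, h4'⟩ := h
  have hR : ∀ i j, Rel L i j → Touch G (F i) (F j) := by
    rintro i j (h | h)
    · exact hL _ h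
    · exact Touch.symm' (hL _ h)
  have hsub : ∀ c, F (e c) ⊆ (if c = m then F (e c) ∪ F w else F (e c)) := by
    intro c
    split_ifs
    · exact Set.subset_union_left
    · exact subset_rfl
  have hsubw : F w ⊆ (if m = m then F (e m) ∪ F w else F (e m)) := by
    rw [if_pos rfl]; exact Set.subset_union_right
  have hmem : ∀ c x, x ∈ (if c = m then F (e c) ∪ F w else F (e c)) →
      ∃ i, x ∈ F i ∧ (i = e c ∨ (c = m ∧ i = w)) := by
    intro c x hx
    split_ifs at hx with hcm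
    · rcases hx with hx | hx
      · exact ⟨_, hx, Or.inl rfl⟩
      · exact ⟨_, hx, Or.inr ⟨hcm, rfl⟩⟩
    · exact ⟨_, hx, Or.inl rfl⟩
  have hmono : ∀ {A B A' B' : Set V}, A ⊆ A' → B ⊆ B' → Touch G A B → Touch G A' B' := by
    rintro A B A' B' h1 h2 ⟨x, hx, y, hy, h⟩
    exact ⟨x, h1 hx, y, h2 hy, h⟩
  have htouch : ∀ c d : Fin 3,
      Touch G (if Sum.inl c = m then F (e (Sum.inl c)) ∪ F w else F (e (Sum.inl c)))
        (if Sum.inr d = m then F (e (Sum.inr d)) ∪ F w else F (e (Sum.inr d))) := by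
    intro c d
    rcases hadj c d with h | ⟨hmc, h⟩ | ⟨hmd, h⟩
    · exact hmono (hsub _) (hsub _) (hR _ _ h)
    · subst hmc
      exact hmono hsubw (hsub _) (hR _ _ h)
    · subst hmd
      exact hmono (hsub _) hsubw (hR _ _ h)
  refine ⟨fun c => if c = m then F (e c) ∪ F w else F (e c), Sum.inl 0, ⟨?_, ?_, ?_⟩, ?_, c, c',
    hcc, hc, hc', ⟨e c, h4, hsub c⟩, ⟨e c', h4', hsub c'⟩⟩
  · intro a
    show (G.induce (if a = m then F (e a) ∪ F w else F (e a))).Connected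
    by_cases ham : a = m
    · subst ham
      have h1 : (if a = a then F (e a) ∪ F w else F (e a)) = F (e a) ∪ F w := if_pos rfl
      rw [h1]
      exact H578.conn_union (hS.conn _) (hS.conn _) (hR _ _ hm)
    · have h1 : (if a = m then F (e a) ∪ F w else F (e a)) = F (e a) := if_neg ham
      rw [h1]
      exact hS.conn _
  · intro a b hab
    rw [Set.disjoint_left]
    intro x hx hy
    obtain ⟨i, hi, hi'⟩ := hmem a x hx
    obtain ⟨j, hj, hj'⟩ := hmem b x hy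
    have hij : i = j := by
      by_contra hne
      exact Set.disjoint_left.1 (hS.disj i j hne) hi hj
    subst hij
    rcases hi' with h1 | ⟨h1, h1'⟩ <;> rcases hj' with h2 | ⟨h2, h2'⟩
    · exact hab (hinj _ _ (h1.symm.trans h2))
    · exact hw a (h1.symm.trans h2')
    · exact hw b (h2.symm.trans h1')
    · exact hab (h1.trans h2.symm)
  · rintro (a | a) (b | b) hab
    · exact absurd hab (by simp [K33, completeBipartiteGraph])
    · exact htouch a b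
    · exact Touch.symm' (htouch b a)
    · exact absurd hab (by simp [K33, completeBipartiteGraph])
  · show (if Sum.inl 0 = m then F (e (Sum.inl 0)) ∪ F w else F (e (Sum.inl 0))) = F 0
    rw [if_neg (Ne.symm hm0), he0]

/-- **[PAIR]** -/
theorem pair : PairStmt := by
  intro V G F hS hpq
  have hL0 : ∀ x ∈ [((0 : Fin 7), (1 : Fin 7)), (1, 5), (1, 6), (2, 4), (2, 5), (2, 6), (3, 4),
      (3, 5), (3, 6)], Touch G (F x.1) (F x.2) := by
    intro x hx
    simp only [List.mem_cons, List.not_mem_nil, or_false] at hx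
    rcases hx with rfl | rfl | rfl | rfl | rfl | rfl | rfl | rfl | rfl
    · exact hS.wx
    · exact hS.xb
    · exact hS.xc
    · exact hS.uv 2 4 (by decide) (by decide)
    · exact hS.uv 2 5 (by decide) (by decide)
    · exact hS.uv 2 6 (by decide) (by decide)
    · exact hS.uv 3 4 (by decide) (by decide)
    · exact hS.uv 3 5 (by decide) (by decide)
    · exact hS.uv 3 6 (by decide) (by decide)
  -- two more touching pairs
  have hgo : ∀ (i j k l : Fin 7) (e : Fin 3 ⊕ Fin 3 → Fin 7) (w : Fin 7) (m : Fin 3 ⊕ Fin 3),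
      Touch G (F i) (F j) → Touch G (F k) (F l) →
      ∀ (i' j' : Fin 7), Touch G (F i') (F j') →
      Cond ((i, j) :: (k, l) :: (i', j') :: [((0 : Fin 7), (1 : Fin 7)), (1, 5), (1, 6), (2, 4),
        (2, 5), (2, 6), (3, 4), (3, 5), (3, 6)]) e w m → NewM G F := by
    intro i j k l e w m h1 h2 i' j' h3 h
    refine build hS _ ?_ e w m h
    intro x hx
    simp only [List.mem_cons] at hx
    rcases hx with rfl | rfl | rfl | hx
    · exact h1
    · exact h2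
    · exact h3
    · exact hL0 x (by simpa only [List.mem_cons] using hx)
  -- `U` or `V`, and `A`
  have h24 : Touch G (F 0) (F 2) → Touch G (F 0) (F 4) → NewM G F := fun h1 h2 =>
    hgo 0 2 0 4 (Sum.elim ![0, 5, 6] ![1, 2, 4]) 3 (Sum.inr 2) h1 h2 0 1 hS.wx (by decide)
  have h34 : Touch G (F 0) (F 3) → Touch G (F 0) (F 4) → NewM G F := fun h1 h2 =>
    hgo 0 3 0 4 (Sum.elim ![0, 5, 6] ![1, 3, 4]) 2 (Sum.inr 2) h1 h2 0 1 hS.wx (by decide)
  have key : ∀ p q : Fin 7, 2 ≤ p → p < q → Touch G (F 0) (F p) → Touch G (F 0) (F q) →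
      NewM G F := by
    intro p q hp hlt h1 h2
    have hc : ∀ p q : Fin 7, 2 ≤ p → p < q →
        (p = 2 ∧ q = 3) ∨ (p = 2 ∧ q = 4) ∨ (p = 2 ∧ q = 5) ∨ (p = 2 ∧ q = 6) ∨
        (p = 3 ∧ q = 4) ∨ (p = 3 ∧ q = 5) ∨ (p = 3 ∧ q = 6) ∨ (p = 4 ∧ q = 5) ∨
        (p = 4 ∧ q = 6) ∨ (p = 5 ∧ q = 6) := by decide
    rcases hc p q hp hlt with ⟨rfl, rfl⟩ | ⟨rfl, rfl⟩ | ⟨rfl, rfl⟩ | ⟨rfl, rfl⟩ | ⟨rfl, rfl⟩ |
      ⟨rfl, rfl⟩ | ⟨rfl, rfl⟩ | ⟨rfl, rfl⟩ | ⟨rfl, rfl⟩ | ⟨rfl, rfl⟩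
    · exact hgo 0 2 0 3 (Sum.elim ![0, 5, 6] ![1, 2, 3]) 4 (Sum.inr 1) h1 h2 0 1 hS.wx (by decide)
    · exact h24 h1 h2
    · rcases hS.xa with h3 | h3
      · exact hgo 0 2 0 5 (Sum.elim ![0, 4, 6] ![1, 2, 5]) 3 (Sum.inr 2) h1 h2 1 4 h3 (by decide)
      · exact h24 h1 h3
    · rcases hS.xa with h3 | h3
      · exact hgo 0 2 0 6 (Sum.elim ![0, 4, 5] ![1, 2, 6]) 3 (Sum.inr 2) h1 h2 1 4 h3 (by decide)
      · exact h24 h1 h3
    · exact h34 h1 h2
    · rcases hS.xa with h3 | h3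
      · exact hgo 0 3 0 5 (Sum.elim ![0, 4, 6] ![1, 3, 5]) 2 (Sum.inr 2) h1 h2 1 4 h3 (by decide)
      · exact h34 h1 h3
    · rcases hS.xa with h3 | h3
      · exact hgo 0 3 0 6 (Sum.elim ![0, 4, 5] ![1, 3, 6]) 2 (Sum.inr 2) h1 h2 1 4 h3 (by decide)
      · exact h34 h1 h3
    · exact hgo 0 4 0 5 (Sum.elim ![0, 2, 3] ![6, 4, 5]) 1 (Sum.inr 0) h1 h2 0 1 hS.wx (by decide)
    · exact hgo 0 4 0 6 (Sum.elim ![0, 2, 3] ![5, 4, 6]) 1 (Sum.inr 0) h1 h2 0 1 hS.wx (by decide)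
    · rcases hS.xa with h3 | h3
      · exact hgo 0 5 0 6 (Sum.elim ![0, 2, 3] ![4, 5, 6]) 1 (Sum.inr 0) h1 h2 1 4 h3 (by decide)
      · exact hgo 0 5 0 6 (Sum.elim ![0, 2, 3] ![4, 5, 6]) 1 (Sum.inr 1) h1 h2 0 4 h3 (by decide)
  obtain ⟨p, q, hp, hq, hpq, h1, h2⟩ := hpq
  rcases lt_or_gt_of_ne hpq with h | h
  · exact key p q hp h h1 h2
  · exact key q p hq h h2 h1

end Vale.Agent.P235.H648
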